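import Mathlib

/-!
# Cut decomposition of finitely many points of ℓ¹ (helper39, for S0171)

For finitely many points `x i` of `ℓ¹`, the distances are a nonnegative combination of cut
(pseudo)metrics, and every family `g i T` of "soft cut memberships" can be decoded to points
`y i` of `ℓ¹`.
-/

namespace Crest.Agent.Helper39

open Finset

/-- indicator of a cut -/
noncomputable def ind {n : ℕ} (T : Finset (Fin n)) (i : Fin n) : ℝ := if i ∈ T then 1 else 0

/-- one real coordinate: cut decomposition of finitely many reals -/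
theorem cut1 (n : ℕ) (a : Fin n → ℝ) :
    ∃ μ : Finset (Fin n) → ℝ, (∀ T, 0 ≤ μ T) ∧
      (∀ T, μ T ≤ ∑ i, ∑ j, |a i - a j|) ∧
      (∀ i j, a i - a j = ∑ T, μ T * (ind T i - ind T j)) ∧
      (∀ i j, |a i - a j| = ∑ T, μ T * |ind T i - ind T j|) := by
  rcases Nat.eq_zero_or_pos n with hn | hn
  · subst hn
    refine ⟨fun _ => 0, fun _ => le_refl _, fun _ => by simp, fun i => i.elim0, fun i => i.elim0⟩
  set σ := Tuple.sort a with hσ
  have hmono : Monotone (a ∘ σ) := Tuple.monotone_sort a
  let rank : Fin n → ℕ := fun i => ((σ.symm i : Fin n) : ℕ)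
  have hrank : ∀ i, rank i < n := fun i => (σ.symm i).2
  let B : ℕ → ℝ := fun m => a (σ ⟨min m (n - 1), by omega⟩)
  have hB : Monotone B := by
    intro m m' h
    apply hmono
    show (⟨min m (n - 1), _⟩ : Fin n) ≤ ⟨min m' (n - 1), _⟩
    rw [Fin.mk_le_mk]
    omega
  have haB : ∀ i, a i = B (rank i) := by
    intro i
    show a i = a (σ ⟨min (rank i) (n - 1), _⟩)
    have h1 : min (rank i) (n - 1) = rank i := by have := hrank i; omega
    have h2 : (⟨min (rank i) (n - 1), by have := hrank i; omega⟩ : Fin n) = σ.symm i := by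
      apply Fin.ext
      show min (rank i) (n - 1) = rank i
      exact h1
    rw [h2]; simp
  let gap : ℕ → ℝ := fun m => B (m + 1) - B m
  have hgap : ∀ m, 0 ≤ gap m := fun m => sub_nonneg.mpr (hB (Nat.le_succ m))
  let Tm : ℕ → Finset (Fin n) := fun m => univ.filter (fun i => m < rank i)
  have hind : ∀ m i, ind (Tm m) i = if m < rank i then 1 else 0 := by
    intro m i
    simp [ind, Tm]
  let μ : Finset (Fin n) → ℝ := fun T => ∑ m ∈ range (n - 1), if Tm m = T then gap m else 0
  have hμF : ∀ F : Finset (Fin n) → ℝ, ∑ T, μ T * F T = ∑ m ∈ range (n - 1), gap m * F (Tm m) := by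
    intro F
    show ∑ T, (∑ m ∈ range (n - 1), if Tm m = T then gap m else 0) * F T = _
    simp_rw [Finset.sum_mul]
    rw [Finset.sum_comm]
    apply Finset.sum_congr rfl
    intro m _
    simp_rw [ite_mul, zero_mul]
    rw [Finset.sum_ite_eq]
    simp
  have hS : ∀ r, r ≤ n - 1 → ∑ m ∈ range (n - 1), gap m * (if m < r then (1:ℝ) else 0) = B r - B 0 := by
    intro r hr
    have h1 : ∑ m ∈ range (n - 1), gap m * (if m < r then (1:ℝ) else 0)
        = ∑ m ∈ range r, gap m := by
      simp_rw [mul_ite, mul_one, mul_zero]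
      rw [← Finset.sum_filter]
      apply Finset.sum_congr _ (fun _ _ => rfl)
      ext m
      simp only [mem_filter, mem_range]
      omega
    rw [h1]
    exact Finset.sum_range_sub B r
  have hsigned : ∀ i j, a i - a j = ∑ T, μ T * (ind T i - ind T j) := by
    intro i j
    rw [hμF]
    simp_rw [hind, mul_sub]
    rw [Finset.sum_sub_distrib, hS _ (by have := hrank i; omega), hS _ (by have := hrank j; omega),
      haB i, haB j]
    ring
  have habs : ∀ i j, rank j ≤ rank i → |a i - a j| = ∑ T, μ T * |ind T i - ind T j| := by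
    intro i j hij
    rw [hμF]
    have h2 : ∀ m, |ind (Tm m) i - ind (Tm m) j| = ind (Tm m) i - ind (Tm m) j := by
      intro m
      rw [abs_of_nonneg]
      rw [hind, hind]
      by_cases hm : m < rank j
      · have : m < rank i := lt_of_lt_of_le hm hij
        simp [hm, this]
      · simp only [hm, if_false, sub_zero]
        split_ifs <;> norm_num
    simp_rw [h2]
    rw [← hμF (fun T => ind T i - ind T j), ← hsigned i j]
    rw [abs_of_nonneg]
    rw [haB i, haB j]
    exact sub_nonneg.mpr (hB hij)
  refine ⟨μ, ?_, ?_, hsigned, ?_⟩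
  · intro T
    apply Finset.sum_nonneg
    intro m _
    split_ifs
    · exact hgap m
    · exact le_refl _
  · intro T
    have h1 : μ T ≤ ∑ m ∈ range (n - 1), gap m := by
      apply Finset.sum_le_sum
      intro m _
      split_ifs
      · exact le_refl _
      · exact hgap m
    have h2 : ∑ m ∈ range (n - 1), gap m = B (n - 1) - B 0 := Finset.sum_range_sub B (n - 1)
    have h3 : B (n - 1) - B 0 ≤ |B (n - 1) - B 0| := le_abs_self _
    let i0 : Fin n := σ ⟨min (n - 1) (n - 1), by omega⟩
    let j0 : Fin n := σ ⟨min 0 (n - 1), by omega⟩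
    have h4 : |B (n - 1) - B 0| = |a i0 - a j0| := rfl
    have h5 : |a i0 - a j0| ≤ ∑ i, ∑ j, |a i - a j| := by
      calc |a i0 - a j0| ≤ ∑ j, |a i0 - a j| :=
            Finset.single_le_sum (f := fun j => |a i0 - a j|) (fun j _ => abs_nonneg _) (mem_univ j0)
        _ ≤ ∑ i, ∑ j, |a i - a j| :=
            Finset.single_le_sum (f := fun i => ∑ j, |a i - a j|)
              (fun i _ => Finset.sum_nonneg (fun j _ => abs_nonneg _)) (mem_univ i0)
    linarith
  · intro i j
    rcases le_total (rank j) (rank i) with h | h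
    · exact habs i j h
    · have := habs j i h
      rw [abs_sub_comm, this]
      apply Finset.sum_congr rfl
      intro T _
      rw [abs_sub_comm]

/-- the norm of `ℓ¹` as a sum of absolute values -/
theorem l1_norm_eq (f : lp (fun _ : ℕ => ℝ) 1) : ‖f‖ = ∑' k, |f k| := by
  rw [lp.norm_eq_tsum_rpow (by norm_num)]
  simp [Real.norm_eq_abs]

theorem l1_summable (f : lp (fun _ : ℕ => ℝ) 1) : Summable (fun k => |f k|) := by
  have h := (lp.memℓp f).summable (by norm_num)
  simpa [Real.norm_eq_abs] using h

/-- **Cut decomposition in `ℓ¹`.** -/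
theorem l1_cut (n : ℕ) (x : Fin n → lp (fun _ : ℕ => ℝ) 1) :
    ∃ lam : Finset (Fin n) → ℝ, (∀ T, 0 ≤ lam T) ∧
      (∀ i j, dist (x i) (x j) = ∑ T, lam T * |ind T i - ind T j|) ∧
      ∀ g : Fin n → Finset (Fin n) → ℝ, ∃ y : Fin n → lp (fun _ : ℕ => ℝ) 1,
        (∀ i j, dist (y i) (y j) ≤ ∑ T, lam T * |g i T - g j T|) ∧
        (∀ i, dist (x i) (y i) ≤ ∑ T, lam T * |ind T i - g i T|) := by
  classical
  -- coordinatewise cut decompositions
  have hc := fun k : ℕ => cut1 n (fun i => x i k)
  choose μ hμ0 hμle hμs hμa using hc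
  -- summability
  have hsum0 : ∀ i j, Summable (fun k : ℕ => |x i k - x j k|) := by
    intro i j
    have := l1_summable (x i - x j)
    simpa using this
  have hsumS : Summable (fun k : ℕ => ∑ i, ∑ j, |x i k - x j k|) :=
    summable_sum (fun i _ => summable_sum (fun j _ => hsum0 i j))
  have hμsum : ∀ T, Summable (fun k => μ k T) := fun T =>
    Summable.of_nonneg_of_le (fun k => hμ0 k T) (fun k => hμle k T) hsumS
  have hμsumc : ∀ (c : Finset (Fin n) → ℝ), Summable (fun k => ∑ T, μ k T * c T) := fun c =>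
    summable_sum (fun T _ => (hμsum T).mul_right (c T))
  have htsum : ∀ (c : Finset (Fin n) → ℝ), ∑' k, ∑ T, μ k T * c T = ∑ T, (∑' k, μ k T) * c T := by
    intro c
    rw [Summable.tsum_finsetSum (fun T _ => (hμsum T).mul_right (c T))]
    apply Finset.sum_congr rfl
    intro T _
    rw [tsum_mul_right]
  refine ⟨fun T => ∑' k, μ k T, fun T => tsum_nonneg (fun k => hμ0 k T), ?_, ?_⟩
  · intro i j
    rw [dist_eq_norm, l1_norm_eq, ← htsum]
    apply tsum_congr
    intro k
    have := hμa k i j
    simpa using this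
  · intro g
    -- the correction terms
    let e : Fin n → ℕ → ℝ := fun i k => ∑ T, μ k T * (g i T - ind T i)
    have he_le : ∀ i k, |e i k| ≤ ∑ T, μ k T * |g i T - ind T i| := by
      intro i k
      refine (Finset.abs_sum_le_sum_abs _ _).trans (le_of_eq ?_)
      apply Finset.sum_congr rfl
      intro T _
      rw [abs_mul, abs_of_nonneg (hμ0 k T)]
    have he_sum : ∀ i, Summable (fun k => |e i k|) := fun i =>
      Summable.of_nonneg_of_le (fun k => abs_nonneg _) (he_le i) (hμsumc _)
    have he_mem : ∀ i, Memℓp (e i) 1 := by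
      intro i
      apply memℓp_gen
      simpa [Real.norm_eq_abs] using he_sum i
    let E : Fin n → lp (fun _ : ℕ => ℝ) 1 := fun i => ⟨e i, he_mem i⟩
    have hE : ∀ i k, (E i : ℕ → ℝ) k = e i k := fun i k => rfl
    refine ⟨fun i => x i + E i, ?_, ?_⟩
    · intro i j
      rw [dist_eq_norm, l1_norm_eq, ← htsum]
      refine Summable.tsum_le_tsum ?_ (l1_summable _) (hμsumc _)
      intro k
      have h1 : ((x i + E i - (x j + E j) : lp (fun _ : ℕ => ℝ) 1) : ℕ → ℝ) k
          = ∑ T, μ k T * (g i T - g j T) := by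
        have h2 : ((x i + E i - (x j + E j) : lp (fun _ : ℕ => ℝ) 1) : ℕ → ℝ) k
            = (x i k - x j k) + (e i k - e j k) := by
          simp only [lp.coeFn_sub, lp.coeFn_add, Pi.sub_apply, Pi.add_apply, hE]
          ring
        rw [h2]
        have h3 := hμs k i j
        simp only at h3
        rw [h3]
        show ∑ T, μ k T * (ind T i - ind T j) + (∑ T, μ k T * (g i T - ind T i)
          - ∑ T, μ k T * (g j T - ind T j)) = _
        rw [← Finset.sum_sub_distrib, ← Finset.sum_add_distrib]
        apply Finset.sum_congr rfl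
        intro T _
        ring
      rw [h1]
      refine (Finset.abs_sum_le_sum_abs _ _).trans (le_of_eq ?_)
      apply Finset.sum_congr rfl
      intro T _
      rw [abs_mul, abs_of_nonneg (hμ0 k T)]
    · intro i
      rw [dist_eq_norm, l1_norm_eq, ← htsum]
      refine Summable.tsum_le_tsum ?_ (l1_summable _) (hμsumc _)
      intro k
      have h1 : ((x i - (x i + E i) : lp (fun _ : ℕ => ℝ) 1) : ℕ → ℝ) k = - e i k := by
        simp only [lp.coeFn_sub, lp.coeFn_add, Pi.sub_apply, Pi.add_apply, hE]
        ring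
      rw [h1, abs_neg]
      refine (he_le i k).trans (le_of_eq ?_)
      apply Finset.sum_congr rfl
      intro T _
      rw [abs_sub_comm]

end Crest.Agent.Helper39
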